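import Vale.Agent.P015.Defs

namespace Vale.Agent.P015

open Finset

open Classical in
/-- a square root of `-1` modulo `p`, if there is one -/
noncomputable def rt (p : ℕ) : ZMod p := if h : ∃ r : ZMod p, r * r = -1 then h.choose else 0

/-- primes up to `y` that are `1` modulo `4` -/
def P1 (y : ℕ) : Finset ℕ := (Nat.primesLE y).filter fun p => p % 4 = 1

/-- the two reductions modulo the Gaussian primes above `p` -/
noncomputable def phi (p : ℕ) (s : Bool) (z : GaussianInt) : ZMod p :=
  (z.re : ZMod p) + (if s then 1 else -1) * rt p * (z.im : ZMod p)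

/-- number of occupied classes -/
noncomputable def nu (p : ℕ) (s : Bool) (A : Finset GaussianInt) : ℕ := (A.image (phi p s)).card

theorem mem_P1 {y p : ℕ} : p ∈ P1 y ↔ p ≤ y ∧ p.Prime ∧ p % 4 = 1 := by
  simp [P1, Nat.mem_primesLE, and_assoc]

theorem rt_sq {p : ℕ} (hp : p.Prime) (h : p % 4 = 1) : rt p * rt p = -1 := by
  haveI := Fact.mk hp
  have h1 : ∃ r : ZMod p, r * r = -1 := by
    obtain ⟨r, hr⟩ := (ZMod.exists_sq_eq_neg_one_iff (p := p)).2 (by omega)
    exact ⟨r, hr.symm⟩
  unfold rt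
  rw [dif_pos h1]
  exact h1.choose_spec

theorem phi_add (p : ℕ) (s : Bool) (a b : GaussianInt) :
    phi p s (a + b) = phi p s a + phi p s b := by
  unfold phi
  rw [Zsqrtd.re_add, Zsqrtd.im_add]
  push_cast
  ring

theorem phi_sub (p : ℕ) (s : Bool) (a b : GaussianInt) :
    phi p s (a - b) = phi p s a - phi p s b := by
  rw [eq_sub_iff_add_eq, ← phi_add, sub_add_cancel]

theorem phi_zero (p : ℕ) (s : Bool) : phi p s 0 = 0 := by simp [phi]

theorem dvd_norm_of_phi {p : ℕ} (hp : p.Prime) (h : p % 4 = 1) {s : Bool} {a : GaussianInt}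
    (h0 : phi p s a = 0) : (p : ℤ) ∣ a.norm := by
  rw [← ZMod.intCast_zmod_eq_zero_iff_dvd, Zsqrtd.norm_def]
  have h1 := rt_sq hp h
  unfold phi at h0
  push_cast
  cases s
  · simp only [Bool.false_eq_true, if_false] at h0
    linear_combination ((a.re : ZMod p) + rt p * a.im) * h0 + (a.im : ZMod p) ^ 2 * h1
  · simp only [if_true] at h0
    linear_combination ((a.re : ZMod p) - rt p * a.im) * h0 + (a.im : ZMod p) ^ 2 * h1

end Vale.Agent.P015
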