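import Mathlib

namespace Vale.Agent.P015

/-- the word formed by the `R` consecutive steps of `z` that start at time `t` -/
def word (z : ℕ → GaussianInt) (R t : ℕ) : Fin R → GaussianInt :=
  fun u => z (t + u + 1) - z (t + u)

/-- the number of different step words of length `R` that occur in `z` -/
noncomputable def cx (z : ℕ → GaussianInt) (R : ℕ) : ℕ := (Set.range (word z R)).ncard

end Vale.Agent.P015
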