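import Vale.Agent.P015.Base

namespace Vale.Agent.P015

open Finset Real

namespace GalA

theorem cs {α β : Type} [DecidableEq β] (W : Finset α) (f : α → β) :
    (W.card : ℝ) ^ 2 ≤ (W.image f).card * ∑ a ∈ W, ∑ b ∈ W, if f b = f a then (1 : ℝ) else 0 := by
  have h1 : (W.card : ℝ) = ∑ r ∈ W.image f, ((W.filter fun b => f b = r).card : ℝ) := by
    rw [card_eq_sum_card_image f W, Nat.cast_sum]
  have h2 : ∑ a ∈ W, ∑ b ∈ W, (if f b = f a then (1 : ℝ) else 0) =
      ∑ r ∈ W.image f, ((W.filter fun b => f b = r).card : ℝ) ^ 2 := by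
    rw [← sum_fiberwise_of_maps_to (g := f) (t := W.image f)
      (fun a ha => mem_image_of_mem _ ha)]
    refine sum_congr rfl fun r _ => ?_
    rw [sum_congr rfl (g := fun _ => ((W.filter fun b => f b = r).card : ℝ)) fun a ha => by
      rw [sum_boole, (mem_filter.1 ha).2], sum_const, nsmul_eq_mul, sq]
  rw [h1, h2]
  exact sq_sum_le_card_mul_sum_sq

theorem sq_dvd {p : ℕ} (hp : p.Prime) (h : p % 4 = 1) {a : GaussianInt}
    (h1 : phi p true a = 0) (h2 : phi p false a = 0) : (p : ℤ) ^ 2 ∣ a.norm := by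
  have := Fact.mk hp
  have h3 := rt_sq hp h
  unfold phi at h1 h2
  simp only [if_true] at h1
  simp only [Bool.false_eq_true, if_false] at h2
  have h4 : (2 : ZMod p) ≠ 0 := by
    intro h5
    have h6 : ((2 : ℕ) : ZMod p) = 0 := by exact_mod_cast h5
    rw [ZMod.natCast_eq_zero_iff] at h6
    have := Nat.le_of_dvd (by norm_num) h6
    have := hp.two_le
    omega
  have h5 : (a.re : ZMod p) = 0 :=
    (mul_eq_zero.1 (show 2 * (a.re : ZMod p) = 0 by linear_combination h1 + h2)).resolve_left h4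
  have h6 : (a.im : ZMod p) = 0 := by
    linear_combination (-rt p) * h1 + rt p * h5 + (a.im : ZMod p) * h3
  rw [ZMod.intCast_zmod_eq_zero_iff_dvd] at h5 h6
  rw [Zsqrtd.norm_def, sq, mul_assoc]
  exact dvd_sub (mul_dvd_mul h5 h5) ((mul_dvd_mul h6 h6).mul_left _)

theorem pair {a : GaussianInt} (ha : a ≠ 0) (y : ℕ) :
    ∑ p ∈ P1 y, ∑ s : Bool, log p * (if phi p s a = 0 then (1 : ℝ) else 0) ≤ log a.norm := by
  obtain ⟨c, hc⟩ : ∃ c : ℕ → ℕ, c = fun p =>
    (if phi p true a = 0 then 1 else 0) + (if phi p false a = 0 then 1 else 0) := ⟨_, rfl⟩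
  have h1 : ∏ p ∈ P1 y, (p : ℤ) ^ c p ∣ a.norm := by
    refine Finset.prod_dvd_of_coprime (fun p hp q hq hpq => ?_) fun p hp => ?_
    · exact (Nat.isCoprime_iff_coprime.2 ((Nat.coprime_primes (mem_P1.1 hp).2.1
        (mem_P1.1 hq).2.1).2 hpq)).pow
    · obtain ⟨-, h2, h3⟩ := mem_P1.1 hp
      rw [hc]
      simp only
      split_ifs with h4 h5 h5
      · exact sq_dvd h2 h3 h4 h5
      · simpa using dvd_norm_of_phi h2 h3 h4
      · simpa using dvd_norm_of_phi h2 h3 h5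
      · simp
  have h2 : ∏ p ∈ P1 y, (p : ℤ) ^ c p ≤ a.norm := Int.le_of_dvd (GaussianInt.norm_pos.2 ha) h1
  have h3 : ∀ p ∈ P1 y, (0 : ℝ) < (p : ℝ) ^ c p := fun p hp =>
    pow_pos (Nat.cast_pos.2 (mem_P1.1 hp).2.1.pos) _
  have h4 : ∑ p ∈ P1 y, ∑ s : Bool, log p * (if phi p s a = 0 then (1 : ℝ) else 0) =
      ∑ p ∈ P1 y, log ((p : ℝ) ^ c p) := by
    refine sum_congr rfl fun p _ => ?_
    rw [Fintype.sum_bool, Real.log_pow, hc]
    push_cast
    ring
  rw [h4, ← Real.log_prod fun p hp => (h3 p hp).ne']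
  refine Real.log_le_log (prod_pos h3) ?_
  have h5 := (Int.cast_le (R := ℝ)).2 h2
  push_cast at h5
  exact h5

theorem diag (y : ℕ) : ∑ p ∈ P1 y, ∑ _s : Bool, log (p : ℝ) ≤ 2 * log 4 * y := by
  have h1 := Chebyshev.theta_le_log4_mul_x (x := (y : ℝ)) (Nat.cast_nonneg y)
  rw [Chebyshev.theta_eq_sum_primesLE_log] at h1
  have h2 : ∑ p ∈ P1 y, log (p : ℝ) ≤ ∑ p ∈ Nat.primesLE y, log (p : ℝ) :=
    sum_le_sum_of_subset_of_nonneg (filter_subset _ _) fun p _ _ => Real.log_natCast_nonneg p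
  simp only [Fintype.sum_bool, sum_add_distrib]
  linarith

end GalA

open GalA in
/-- larger sieve over the Gaussian integers -/
theorem gal {A : Finset GaussianInt} (hA : A.Nonempty) {X : ℝ} (hX : 1 ≤ X)
    (h : ∀ a ∈ A, ∀ b ∈ A, ((a - b).norm : ℝ) ≤ X) (y : ℕ) :
    ∑ p ∈ P1 y, ∑ s : Bool, log p / nu p s A ≤ log X + 2 * log 4 * y / A.card := by
  have hn : (0 : ℝ) < A.card := Nat.cast_pos.2 hA.card_pos
  have hlx : 0 ≤ log X := Real.log_nonneg hX
  have h1 : ∀ p ∈ P1 y, ∑ s : Bool, log p / nu p s A ≤ ∑ s : Bool,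
      (∑ a ∈ A, ∑ b ∈ A, log p * (if phi p s b = phi p s a then (1 : ℝ) else 0)) /
        (A.card : ℝ) ^ 2 := by
    intro p _
    refine sum_le_sum fun s _ => ?_
    have hv : (0 : ℝ) < nu p s A := Nat.cast_pos.2 (hA.image _).card_pos
    simp only [← mul_sum]
    rw [div_le_div_iff₀ hv (by positivity), mul_assoc, mul_comm _ (nu p s A : ℝ)]
    exact mul_le_mul_of_nonneg_left (cs A (phi p s)) (Real.log_natCast_nonneg p)
  have h2 : ∀ a ∈ A, ∑ b ∈ A, ∑ p ∈ P1 y, ∑ s : Bool,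
      log p * (if phi p s b = phi p s a then (1 : ℝ) else 0) ≤
      A.card * log X + 2 * log 4 * y := by
    intro a ha
    rw [← add_sum_erase _ _ ha, add_comm]
    refine add_le_add ?_ (le_trans (le_of_eq (sum_congr rfl fun p _ => sum_congr rfl fun s _ => by
      rw [if_pos rfl, mul_one])) (diag y))
    refine (sum_le_card_nsmul _ _ (log X) fun b hb => ?_).trans ?_
    · obtain ⟨b1, b2⟩ := mem_erase.1 hb
      have h3 : b - a ≠ 0 := sub_ne_zero.2 b1
      refine le_trans (le_of_eq (sum_congr rfl fun p _ => sum_congr rfl fun s _ => ?_))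
        ((pair h3 y).trans (Real.log_le_log ?_ (h b b2 a ha)))
      · rw [phi_sub, if_congr sub_eq_zero rfl rfl]
      · exact_mod_cast GaussianInt.norm_pos.2 h3
    · rw [nsmul_eq_mul]
      exact mul_le_mul_of_nonneg_right (Nat.cast_le.2 card_erase_le) hlx
  have h3 : ∑ p ∈ P1 y, ∑ s : Bool, ∑ a ∈ A, ∑ b ∈ A,
      log p * (if phi p s b = phi p s a then (1 : ℝ) else 0) =
      ∑ a ∈ A, ∑ b ∈ A, ∑ p ∈ P1 y, ∑ s : Bool,
      log p * (if phi p s b = phi p s a then (1 : ℝ) else 0) := by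
    rw [sum_congr rfl fun p _ => sum_comm, sum_comm]
    refine sum_congr rfl fun a _ => ?_
    rw [sum_congr rfl fun p _ => sum_comm, sum_comm]
  refine (sum_le_sum h1).trans ?_
  simp only [← sum_div]
  rw [h3, div_le_iff₀ (by positivity)]
  refine (sum_le_card_nsmul _ _ _ h2).trans (le_of_eq ?_)
  rw [nsmul_eq_mul]
  field_simp

end Vale.Agent.P015
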