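import Vale.Agent.P015.Base
import Vale.Agent.P001.Mert

namespace Vale.Agent.P015

open Finset Real

namespace MertA

open ArithmeticFunction hiding log

/-- the nontrivial character modulo four -/
noncomputable def chi (n : ℕ) : ℝ := ((ZMod.χ₄ (n : ZMod 4) : ℤ) : ℝ)

theorem chi_eq (n : ℕ) : chi n = if n % 2 = 0 then 0 else if n % 4 = 1 then 1 else -1 := by
  unfold chi
  rw [ZMod.χ₄_nat_eq_if_mod_four]
  split_ifs <;> simp

theorem chi_mul (m n : ℕ) : chi (m * n) = chi m * chi n := by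
  unfold chi
  rw [Nat.cast_mul, map_mul, Int.cast_mul]

theorem abs_chi (n : ℕ) : |chi n| ≤ 1 := by
  rw [chi_eq]
  split_ifs <;> simp

/-- the sum of the character below `n` -/
def ps (n : ℕ) : ℝ := if 2 ≤ n % 4 then 1 else 0

theorem ps_succ (n : ℕ) : ps (n + 1) = ps n + chi n := by
  rw [chi_eq]
  unfold ps
  split_ifs <;> first | omega | norm_num

theorem ps_nonneg (n : ℕ) : 0 ≤ ps n := by
  unfold ps
  split_ifs <;> norm_num

theorem ps_le (n : ℕ) : ps n ≤ 1 := by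
  unfold ps
  split_ifs <;> norm_num

theorem alt_aux (f : ℕ → ℝ) (a : ℕ) (hf : ∀ n, a ≤ n → f (n + 1) ≤ f n) (b : ℕ) (hb : a ≤ b) :
    0 ≤ ∑ n ∈ Ico a b, chi n * f n - ps b * f b + ps a * f a ∧
      ∑ n ∈ Ico a b, chi n * f n - ps b * f b + ps a * f a ≤ f a - f b := by
  induction b, hb using Nat.le_induction with
  | base => simp
  | succ b hb ih =>
    rw [sum_Ico_succ_top hb]
    have h1 := hf b hb
    have h2 : chi b = ps (b + 1) - ps b := by rw [ps_succ]; ring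
    have h3 : 0 ≤ ps (b + 1) * (f b - f (b + 1)) := mul_nonneg (ps_nonneg _) (by linarith)
    have h4 : ps (b + 1) * (f b - f (b + 1)) ≤ f b - f (b + 1) :=
      mul_le_of_le_one_left (by linarith) (ps_le _)
    rw [h2]
    constructor <;> nlinarith [ih.1, ih.2]

theorem alt (f : ℕ → ℝ) (a : ℕ) (hf : ∀ n, a ≤ n → f (n + 1) ≤ f n) (h0 : ∀ n, a ≤ n → 0 ≤ f n)
    (b : ℕ) : |∑ n ∈ Ico a b, chi n * f n| ≤ f a := by
  rcases le_total a b with hb | hb
  · obtain ⟨h1, h2⟩ := alt_aux f a hf b hb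
    have h3 : 0 ≤ ps b * f b := mul_nonneg (ps_nonneg _) (h0 b hb)
    have h4 : ps b * f b ≤ f b := mul_le_of_le_one_left (h0 b hb) (ps_le _)
    have h5 : 0 ≤ ps a * f a := mul_nonneg (ps_nonneg _) (h0 a le_rfl)
    have h6 : ps a * f a ≤ f a := mul_le_of_le_one_left (h0 a le_rfl) (ps_le _)
    rw [abs_le]
    constructor <;> linarith
  · rw [Ico_eq_empty_of_le hb, sum_empty, abs_zero]
    exact h0 a le_rfl

theorem alt_inv (a : ℕ) (ha : 1 ≤ a) (b : ℕ) :
    |∑ n ∈ Ico a b, chi n * (1 / (n : ℝ))| ≤ 1 / (a : ℝ) := by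
  refine alt (fun n => 1 / (n : ℝ)) a (fun n hn => ?_) (fun n _ => by positivity) b
  have h1 : (0 : ℝ) < n := by exact_mod_cast (by omega : 0 < n)
  exact one_div_le_one_div_of_le h1 (by push_cast; linarith)

/-- the truncated value at one -/
noncomputable def PP (N : ℕ) : ℝ := ∑ m ∈ Ioc 0 N, chi m * (1 / (m : ℝ))

theorem Ioc_eq (a b : ℕ) : Ioc a b = Ico (a + 1) (b + 1) := by
  ext x
  simp only [mem_Ioc, mem_Ico]
  omega

theorem PP_sub {M N : ℕ} (h : M ≤ N) : |PP N - PP M| ≤ 1 / ((M : ℝ) + 1) := by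
  have h1 : PP N - PP M = ∑ n ∈ Ico (M + 1) (N + 1), chi n * (1 / (n : ℝ)) := by
    unfold PP
    rw [← Ioc_eq, ← sum_Ioc_consecutive _ (Nat.zero_le M) h]
    ring
  have h2 := alt_inv (M + 1) (by omega) (N + 1)
  rw [h1]
  push_cast at h2
  exact h2

theorem PP_ge {N : ℕ} (h : 1 ≤ N) : 1 / 2 ≤ PP N := by
  have h1 := PP_sub h
  have h2 : PP 1 = 1 := by simp [PP, chi_eq]
  rw [h2, abs_le] at h1
  norm_num at h1 ⊢
  linarith [h1.1]

theorem LL_le (y : ℕ) : |∑ n ∈ Ioc 0 y, chi n * (log n / n)| ≤ 1 := by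
  have h1 : ∑ n ∈ Ioc 0 y, chi n * (log n / n) = ∑ n ∈ Ico 3 (y + 1), chi n * (log n / n) := by
    symm
    refine sum_subset (fun n hn => ?_) fun n hn hn' => ?_
    · simp only [mem_Ioc, mem_Ico] at hn ⊢
      omega
    · simp only [mem_Ioc, mem_Ico] at hn hn'
      have h2 : n = 1 ∨ n = 2 := by omega
      rcases h2 with rfl | rfl
      · simp
      · simp [chi_eq]
  have he : exp 1 ≤ 3 := by
    have := Real.exp_one_lt_d9
    linarith
  have h2 := alt (fun n => log n / (n : ℝ)) 3 (fun n hn => by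
      have h3 : (3 : ℝ) ≤ n := by exact_mod_cast hn
      exact Real.log_div_self_antitoneOn (a := (n : ℝ)) (b := ((n + 1 : ℕ) : ℝ))
        (Set.mem_Ici.2 (by linarith)) (Set.mem_Ici.2 (by push_cast; linarith))
        (by push_cast; linarith))
    (fun n _ => div_nonneg (Real.log_natCast_nonneg n) (Nat.cast_nonneg n)) (y + 1)
  rw [h1]
  refine h2.trans ?_
  have h3 : log ((3 : ℕ) : ℝ) ≤ (3 : ℕ) := Real.log_le_self (by positivity)
  exact (div_le_one (by positivity)).2 h3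

theorem conv (y : ℕ) : ∑ n ∈ Ioc 0 y, chi n * (log n / n) =
    ∑ d ∈ Ioc 0 y, chi d * (vonMangoldt d / d) * PP (y / d) := by
  let f : ArithmeticFunction ℝ := ⟨fun d => chi d * (vonMangoldt d / d), by simp⟩
  let g : ArithmeticFunction ℝ := ⟨fun d => chi d * (1 / (d : ℝ)), by simp⟩
  have h := sum_Ioc_mul_eq_sum_sum f g y
  refine Eq.trans (sum_congr rfl fun n hn => ?_) h
  rw [mul_apply, ← vonMangoldt_sum, ← Nat.sum_divisorsAntidiagonal (fun a _ => vonMangoldt a),
    sum_div, mul_sum]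
  refine sum_congr rfl fun x hx => ?_
  obtain ⟨h1, -⟩ := Nat.mem_divisorsAntidiagonal.1 hx
  rw [← h1, chi_mul]
  simp only [f, g, coe_mk]
  push_cast
  ring

theorem MM_ge (y : ℕ) (hy : 1 ≤ y) :
    -(2 * (log 4 + 5)) ≤ ∑ d ∈ Ioc 0 y, chi d * (vonMangoldt d / d) := by
  have hy0 : (0 : ℝ) < y := by exact_mod_cast hy
  have h1 : PP y * ∑ d ∈ Ioc 0 y, chi d * (vonMangoldt d / d) =
      ∑ n ∈ Ioc 0 y, chi n * (log n / n) +
        ∑ d ∈ Ioc 0 y, chi d * (vonMangoldt d / d) * (PP y - PP (y / d)) := by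
    rw [conv, mul_sum, ← sum_add_distrib]
    exact sum_congr rfl fun d _ => by ring
  have h2 : |∑ d ∈ Ioc 0 y, chi d * (vonMangoldt d / d) * (PP y - PP (y / d))| ≤ log 4 + 4 := by
    have h3 := Chebyshev.psi_le_const_mul_self hy0.le
    unfold Chebyshev.psi at h3
    rw [Nat.floor_natCast, ← div_le_iff₀ hy0, sum_div] at h3
    refine (abs_sum_le_sum_abs _ _).trans (le_trans (sum_le_sum fun d hd => ?_) h3)
    have hd0 : 0 < d := (mem_Ioc.1 hd).1
    have hd1 : (0 : ℝ) < d := by exact_mod_cast hd0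
    have h4 : 0 ≤ vonMangoldt d / (d : ℝ) := div_nonneg vonMangoldt_nonneg hd1.le
    have h5 : |PP y - PP (y / d)| ≤ d / y := by
      refine (PP_sub (Nat.div_le_self y d)).trans ?_
      rw [div_le_div_iff₀ (by positivity) hy0, one_mul]
      have h6 : y < d * (y / d + 1) := Nat.lt_mul_div_succ y hd0
      exact_mod_cast h6.le
    rw [abs_mul, abs_mul, abs_of_nonneg h4]
    calc |chi d| * (vonMangoldt d / d) * |PP y - PP (y / d)|
        ≤ 1 * (vonMangoldt d / d) * (d / y) :=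
          mul_le_mul (mul_le_mul_of_nonneg_right (abs_chi d) h4) h5 (abs_nonneg _) (by positivity)
      _ = vonMangoldt d / y := by field_simp
  have h3 := LL_le y
  have h4 := PP_ge hy
  have h5 : 0 ≤ log (4 : ℝ) := Real.log_nonneg (by norm_num)
  rw [abs_le] at h2 h3
  by_contra h6
  have h7 := not_le.1 h6
  nlinarith [h2.1, h3.1]

theorem primes_ge : ∃ C : ℝ, ∀ y : ℕ, 1 ≤ y →
    -C ≤ ∑ p ∈ Nat.primesLE y, chi p * (log p / p) := by
  have hs := vonMangoldt.summable_residueClass_non_primes_div (0 : ZMod 1)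
  have he : ∀ n, vonMangoldt.residueClass (0 : ZMod 1) n = vonMangoldt n := fun n =>
    Set.indicator_of_mem (s := {n : ℕ | (n : ZMod 1) = 0})
      (Subsingleton.elim (α := ZMod 1) _ _) _
  simp only [he] at hs
  refine ⟨2 * (log 4 + 5) + ∑' n : ℕ, (if n.Prime then 0 else vonMangoldt n) / (n : ℝ),
    fun y hy => ?_⟩
  have h1 := MM_ge y hy
  have h2 := hs.sum_le_tsum (Ioc 0 y) fun n _ => by
    refine div_nonneg ?_ (Nat.cast_nonneg n)
    split_ifs
    · exact le_rfl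
    · exact vonMangoldt_nonneg
  have h3 : Nat.primesLE y = (Ioc 0 y).filter Nat.Prime := by
    ext p
    rw [Nat.mem_primesLE, mem_filter, mem_Ioc]
    exact ⟨fun h => ⟨⟨h.2.pos, h.1⟩, h.2⟩, fun h => ⟨h.1.2, h.2⟩⟩
  have h4 : ∑ d ∈ Ioc 0 y, chi d * (vonMangoldt d / d) ≤
      ∑ p ∈ Nat.primesLE y, chi p * (log p / p) +
        ∑ n ∈ Ioc 0 y, (if n.Prime then 0 else vonMangoldt n) / (n : ℝ) := by
    rw [h3, sum_filter, ← sum_add_distrib]
    refine sum_le_sum fun d _ => ?_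
    split_ifs with hd
    · rw [vonMangoldt_apply_prime hd, zero_div, add_zero]
    · rw [zero_add]
      exact mul_le_of_le_one_left (div_nonneg vonMangoldt_nonneg (Nat.cast_nonneg d))
        ((le_abs_self _).trans (abs_chi d))
  linarith

end MertA

open MertA in
/-- lower bound of Mertens type for the primes `1` modulo `4` -/
theorem mert4 (K : ℕ) : ∃ C : ℝ, ∀ y : ℕ, 1 ≤ y →
    log y - C ≤ ∑ p ∈ P1 y, 2 * log p / (p + K) := by
  obtain ⟨C₁, h₁⟩ := primes_ge
  obtain ⟨C₂, h₂⟩ := Vale.Agent.P001.MertA.first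
  obtain ⟨C₃, h₃⟩ := Vale.Agent.P001.MertA.sum_small
  refine ⟨C₁ + C₂ + 2 * K * C₃ + 1, fun y hy => ?_⟩
  have a1 := h₁ y hy
  have a2 := (abs_le.1 (h₂ y hy)).1
  have a3 := mul_le_mul_of_nonneg_left (h₃ y) (by positivity : (0 : ℝ) ≤ 2 * K)
  have a4 : ∑ p ∈ Nat.primesLE y, (if p = 2 then (1 : ℝ) else 0) ≤ 1 := by
    rw [sum_ite_eq']
    split_ifs <;> norm_num
  have a5 : ∑ p ∈ Nat.primesLE y, log (p : ℝ) / p + ∑ p ∈ Nat.primesLE y, chi p * (log p / p) ≤
      ∑ p ∈ P1 y, 2 * log p / (p + K) +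
        2 * K * ∑ p ∈ Nat.primesLE y, log (p : ℝ) / ((p : ℝ) * ((p : ℝ) - 1)) +
        ∑ p ∈ Nat.primesLE y, (if p = 2 then (1 : ℝ) else 0) := by
    unfold P1
    rw [sum_filter, mul_sum, ← sum_add_distrib, ← sum_add_distrib, ← sum_add_distrib]
    refine sum_le_sum fun p hp => ?_
    have hp' := Nat.prime_of_mem_primesLE hp
    have hp2 : (2 : ℝ) ≤ p := by exact_mod_cast hp'.two_le
    have hl := Real.log_natCast_nonneg p
    have hK : (0 : ℝ) ≤ K := Nat.cast_nonneg K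
    have b0 : (0 : ℝ) < (p : ℝ) - 1 := by linarith
    have b1 : 0 ≤ 2 * K * (log (p : ℝ) / ((p : ℝ) * ((p : ℝ) - 1))) := by positivity
    rw [chi_eq]
    by_cases h2 : p = 2
    · have b2 : log (p : ℝ) / p ≤ 1 := (div_le_one (by linarith)).2 (Real.log_le_self (by linarith))
      rw [if_pos (by omega), if_neg (by omega), if_pos h2]
      linarith
    · have h3 : p % 2 = 1 := hp'.eq_two_or_odd.resolve_left h2
      rw [if_neg (by omega), if_neg h2]
      split_ifs with h4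
      · have b2 : 1 / (p : ℝ) ≤ 1 / (p + K) + K * (1 / ((p : ℝ) * ((p : ℝ) - 1))) := by
          have b3 : 1 / (p : ℝ) = 1 / (p + K) + K * (1 / ((p : ℝ) * (p + K))) := by
            field_simp
          have b4 : 1 / ((p : ℝ) * (p + K)) ≤ 1 / ((p : ℝ) * ((p : ℝ) - 1)) :=
            one_div_le_one_div_of_le (by positivity)
              (mul_le_mul_of_nonneg_left (by linarith) (by linarith))
          have b5 := mul_le_mul_of_nonneg_left b4 hK
          linarith
        have b6 := mul_le_mul_of_nonneg_left b2 (by positivity : 0 ≤ 2 * log (p : ℝ))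
        have e1 : log (p : ℝ) / p + 1 * (log p / p) = 2 * log p * (1 / (p : ℝ)) := by ring
        have e2 : 2 * log (p : ℝ) / (p + K) + 2 * K * (log (p : ℝ) / ((p : ℝ) * ((p : ℝ) - 1))) + 0 =
            2 * log p * (1 / (p + K) + K * (1 / ((p : ℝ) * ((p : ℝ) - 1)))) := by ring
        rw [e1, e2]
        exact b6
      · linarith
  linarith

end Vale.Agent.P015
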