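import Vale.Agent.P015.Shape
import Vale.Agent.P015.Gal
import Vale.Agent.P015.Mert

namespace Vale.Agent.P015

open Finset Real Filter

theorem norm_le_sq {g : GaussianInt} (hg : Irreducible g) {p : ℕ} (hp : p.Prime)
    (h : (p : ℤ) ∣ g.norm) : g.norm ≤ (p : ℤ) * p := by
  have h1 : g ∣ (p : GaussianInt) := by
    by_contra hn
    have c1 : IsCoprime g (p : GaussianInt) := hg.coprime_iff_not_dvd.2 hn
    have c2 : IsCoprime (star g) (p : GaussianInt) := by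
      have := c1.map (starRingEnd GaussianInt)
      rwa [map_natCast] at this
    have c3 := c1.mul_left c2
    rw [← Zsqrtd.norm_eq_mul_conj] at c3
    have c4 : (p : GaussianInt) ∣ (g.norm : GaussianInt) := by
      have := map_dvd (Int.castRingHom GaussianInt) h
      simpa using this
    have c5 := Zsqrtd.isUnit_iff_norm_isUnit _ |>.1 (c3.isUnit_of_dvd' c4 dvd_rfl)
    rw [Zsqrtd.norm_natCast, Int.isUnit_iff_natAbs_eq, Int.natAbs_mul, Int.natAbs_natCast] at c5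
    exact hp.one_lt.ne' (Nat.eq_one_of_mul_eq_one_right c5)
  have h2 : g.norm ∣ (p : GaussianInt).norm := map_dvd Zsqrtd.normMonoidHom h1
  rw [Zsqrtd.norm_natCast] at h2
  have h3 : (0 : ℤ) < p := Int.natCast_pos.2 hp.pos
  exact Int.le_of_dvd (by positivity) h2

theorem far {z : ℕ → GaussianInt} (hz : Function.Injective z) (hirr : ∀ t, Irreducible (z t))
    (Y : ℕ) : ∃ t, ∀ u, ∀ p ∈ P1 Y, ∀ s, phi p s (z (t + u)) ≠ 0 := by
  have h1 := hz.tendsto_cofinite.eventually (fin_ball Y).compl_mem_cofinite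
  rw [Nat.cofinite_eq_atTop, eventually_atTop] at h1
  obtain ⟨t, ht⟩ := h1
  refine ⟨t, fun u p hp s h0 => ht (t + u) (by omega) ?_⟩
  obtain ⟨p1, p2, p3⟩ := mem_P1.1 hp
  have h2 := norm_le_sq (hirr _) p2 (dvd_norm_of_phi p2 p3 h0)
  have h3 : ((z (t + u)).norm : ℝ) ≤ (p : ℝ) * p := by exact_mod_cast h2
  rw [GaussianInt.intCast_real_norm, Complex.normSq_eq_norm_sq, ← sq] at h3
  exact (abs_le_of_sq_le_sq' h3 (Nat.cast_nonneg _)).2.trans (Nat.cast_le.2 p1)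

theorem sumS (K : ℕ) : ∑ i ∈ range K, ∑ j ∈ range K,
    (1 / 2 : ℝ) ^ i * (1 / 2) ^ j * 4 ^ min i j = 3 * K - 4 + 4 * (1 / 2) ^ K := by
  have h4 : ∀ i : ℕ, (1 / 2 : ℝ) ^ i * 4 ^ i = 2 ^ i := fun i => by
    rw [← mul_pow]
    norm_num
  have h2 : ∀ i : ℕ, (1 / 2 : ℝ) ^ i * 2 ^ i = 1 := fun i => by
    rw [← mul_pow]
    norm_num
  have hg : ∀ K : ℕ, ∑ i ∈ range K, (2 : ℝ) ^ i = 2 ^ K - 1 := fun K => by
    rw [geom_sum_eq (by norm_num)]
    norm_num
  induction K with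
  | zero => simp
  | succ K ih =>
    have e1 : ∑ i ∈ range K, (1 / 2 : ℝ) ^ i * (1 / 2) ^ K * 4 ^ min i K =
        (1 / 2) ^ K * (2 ^ K - 1) := by
      rw [← hg, mul_sum]
      exact sum_congr rfl fun i hi => by
        rw [min_eq_left (mem_range.1 hi).le, ← h4]
        ring
    have e2 : ∑ j ∈ range K, (1 / 2 : ℝ) ^ K * (1 / 2) ^ j * 4 ^ min K j =
        (1 / 2) ^ K * (2 ^ K - 1) := by
      rw [← e1]
      exact sum_congr rfl fun i _ => by
        rw [min_comm]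
        ring
    rw [sum_range_succ, sum_range_succ, sum_congr rfl fun i _ => sum_range_succ _ _,
      sum_add_distrib, ih, e1, e2, min_self, mul_assoc, h4, mul_sub, h2, pow_succ]
    push_cast
    ring

theorem main {z : ℕ → GaussianInt} {D : ℝ} (hz : Function.Injective z)
    (hirr : ∀ t, Irreducible (z t)) (hD : ∀ t, ‖(z (t + 1) : ℂ) - (z t : ℂ)‖ ≤ D) :
    ∃ᶠ R : ℕ in atTop, (R : ℝ) ^ (13 / 10 : ℝ) < cx z R := by
  rw [Filter.Frequently]
  intro hev
  obtain ⟨R0, hR0⟩ := eventually_atTop.1 hev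
  obtain ⟨C, hC⟩ := mert4 109
  obtain ⟨E, hE⟩ : ∃ E, E = max D 1 := ⟨_, rfl⟩
  have hE1 : 1 ≤ E := hE ▸ le_max_right _ _
  have hDE : ∀ t, ‖(z (t + 1) : ℂ) - (z t : ℂ)‖ ≤ E := fun t =>
    (hD t).trans (hE ▸ le_max_left _ _)
  have l2 : 0 < log 2 := log_pos one_lt_two
  obtain ⟨M, hM⟩ : ∃ M : ℝ, M = ∑ i ∈ range 109, ∑ j ∈ range 109, (1 / 2 : ℝ) ^ i * (1 / 2) ^ j * C +
    ∑ i ∈ range 109, ((1 / 2 : ℝ) ^ i) ^ 2 * (2 * log E + 4 * log 4) := ⟨_, rfl⟩
  obtain ⟨n, hn⟩ := exists_nat_gt (max (M / log 2) R0)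
  have hn1 : M < n * log 2 := (div_lt_iff₀ l2).1 ((le_max_left _ _).trans_lt hn)
  have hn2 : R0 < n := by exact_mod_cast (le_max_right _ _).trans_lt hn
  have hm : ∀ i, n ≤ n * 4 ^ i := fun i => Nat.le_mul_of_pos_right _ (by positivity)
  have hcx : ∀ i, cx z (2 ^ (10 * (n * 4 ^ i))) ≤ 2 ^ (13 * (n * 4 ^ i)) := fun i => by
    have h1 := not_lt.1 (hR0 (2 ^ (10 * (n * 4 ^ i))) (by
      have := Nat.lt_two_pow_self (n := 10 * (n * 4 ^ i))
      have := hm i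
      omega))
    rw [Nat.cast_pow, Nat.cast_ofNat, ← rpow_natCast, ← rpow_mul (by norm_num),
      show ((10 * (n * 4 ^ i) : ℕ) : ℝ) * (13 / 10) = ((13 * (n * 4 ^ i) : ℕ) : ℝ) by
        push_cast
        ring, rpow_natCast] at h1
    exact_mod_cast h1
  obtain ⟨y, hy⟩ : ∃ y : ℕ → ℕ, ∀ i, y i = 2 ^ (27 * (n * 4 ^ i)) := ⟨_, fun _ => rfl⟩
  have ymono : Monotone y := fun i j hij => by
    rw [hy, hy]
    gcongr <;> norm_num
  obtain ⟨t, ht⟩ := far hz hirr (y 109)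
  obtain ⟨b, A, hA, hb⟩ := shapes hz (word_fin hD) (fun i => 2 ^ (10 * (n * 4 ^ i)))
    (fun i => 2 ^ (27 * (n * 4 ^ i) - 1)) 109 (fun i _ => by
      have h1 := hm i
      have h2 : 2 ^ (27 * (n * 4 ^ i) - 1) * cx z (2 ^ (10 * (n * 4 ^ i))) ≤
          2 ^ (40 * (n * 4 ^ i) - 1) := by
        refine (Nat.mul_le_mul_left _ (hcx i)).trans (le_of_eq ?_)
        rw [← pow_add]
        congr 1
        omega
      have h3 : 2 ^ (10 * (n * 4 ^ i)) < 2 ^ (40 * (n * 4 ^ i) - 1) :=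
        Nat.pow_lt_pow_right one_lt_two (by omega)
      have h4 : 2 ^ (10 * (n * 4 ^ (i + 1))) = 2 ^ (40 * (n * 4 ^ i) - 1) * 2 := by
        rw [← pow_succ, pow_succ 4, ← mul_assoc n]
        congr 1
        omega
      omega) t
  have hne : ∀ i < 109, (A i).Nonempty := fun i hi => card_pos.1 (Nat.zero_lt_of_lt (hA i hi).1)
  have h1 := comb hne y (fun i => (1 / 2 : ℝ) ^ i) (fun i hi => ymono hi.le) fun p hp s =>
    cd (mem_P1.1 hp).2.1 s b A 109 hne fun a ha => by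
      obtain ⟨u, -, e⟩ := hb a ha
      rw [← e]
      exact ht u p hp s
  have h2 : ∀ i ∈ range 109, ∀ j ∈ range 109,
      27 * n * log 2 * ((1 / 2 : ℝ) ^ i * (1 / 2) ^ j * 4 ^ min i j) -
        (1 / 2 : ℝ) ^ i * (1 / 2) ^ j * C ≤ (1 / 2 : ℝ) ^ i * (1 / 2) ^ j *
        ∑ p ∈ P1 (min (y i) (y j)), 2 * log p / (p + (109 : ℕ)) := fun i _ j _ => by
    have h3 := hC (y (min i j)) (by rw [hy]; exact Nat.one_le_two_pow)
    rw [← ymono.map_min]
    refine le_trans (le_of_eq ?_) (mul_le_mul_of_nonneg_left h3 (by positivity))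
    rw [hy]
    push_cast
    rw [log_pow]
    push_cast
    ring
  have h3 : ∀ i ∈ range 109, ((1 / 2 : ℝ) ^ i) ^ 2 *
      ∑ p ∈ P1 (y i), ∑ s : Bool, log p / nu p s (A i) ≤
      80 * n * log 2 + ((1 / 2 : ℝ) ^ i) ^ 2 * (2 * log E + 4 * log 4) := fun i hi => by
    obtain ⟨a1, a2⟩ := hA i (mem_range.1 hi)
    have r1 : (1 : ℝ) ≤ (2 ^ (10 * (n * 4 ^ (i + 1))) : ℕ) := by
      exact_mod_cast Nat.one_le_two_pow
    have h4 := gal (hne i (mem_range.1 hi))
      (X := (E * (2 ^ (10 * (n * 4 ^ (i + 1))) : ℕ)) ^ 2)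
      (one_le_pow₀ (one_le_mul_of_one_le_of_one_le hE1 r1)) (fun a ha a' ha' => by
        obtain ⟨s, u, v, hu, hv, e⟩ := a2 a ha a' ha'
        rw [e]
        exact norm_le hDE hu hv) (y i)
    have h5 : y i ≤ 2 * (A i).card := by
      have h6 : y i = 2 ^ (27 * (n * 4 ^ i) - 1) * 2 := by
        have := hm i
        rw [hy, ← pow_succ]
        congr 1
        omega
      omega
    have h6 : 2 * log 4 * y i / (A i).card ≤ 4 * log 4 := by
      have c0 : (0 : ℝ) < (A i).card := Nat.cast_pos.2 (hne i (mem_range.1 hi)).card_pos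
      have c1 : (y i : ℝ) ≤ 2 * (A i).card := by exact_mod_cast h5
      have c2 : 0 < log 4 := log_pos (by norm_num)
      rw [div_le_iff₀ c0]
      nlinarith
    have h7 : ((1 / 2 : ℝ) ^ i) ^ 2 * 4 ^ i = 1 := by
      rw [← pow_mul, mul_comm i, pow_mul, ← mul_pow]
      norm_num
    rw [log_pow, log_mul (by linarith) (by linarith), Nat.cast_pow, log_pow] at h4
    refine (mul_le_mul_of_nonneg_left (h4.trans (add_le_add le_rfl h6)) (by positivity)).trans
      (le_of_eq ?_)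
    push_cast
    linear_combination (80 * n * log 2) * h7
  have h4 := ((sum_le_sum fun i hi => sum_le_sum (h2 i hi)).trans h1).trans (sum_le_sum h3)
  rw [sum_congr rfl fun i _ => sum_sub_distrib _ _, sum_sub_distrib, sum_add_distrib,
    sum_congr rfl fun i _ => (mul_sum _ _ _).symm, ← mul_sum, sumS, sum_const, card_range,
    nsmul_eq_mul] at h4
  have h5 : (0 : ℝ) ≤ n * log 2 * (1 / 2) ^ 109 := by positivity
  push_cast at h4
  linarith

end Vale.Agent.P015
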