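import Vale.Agent.P015.Base

namespace Vale.Agent.P015

open Finset Real Pointwise

theorem fin_ball (D : ℝ) : {g : GaussianInt | ‖(g : ℂ)‖ ≤ D}.Finite := by
  have hinj : Function.Injective fun g : GaussianInt => (g.re, g.im) := fun a b h =>
    Zsqrtd.ext (congrArg Prod.fst h) (congrArg Prod.snd h)
  refine (((Set.finite_Icc (-⌈D⌉) ⌈D⌉).prod (Set.finite_Icc (-⌈D⌉) ⌈D⌉)).preimage
    hinj.injOn).subset fun g hg => ?_
  have h0 : ‖(g : ℂ)‖ ≤ (⌈D⌉ : ℤ) := le_trans hg (Int.le_ceil D)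
  have h1 := (Complex.abs_re_le_norm (g : ℂ)).trans h0
  have h2 := (Complex.abs_im_le_norm (g : ℂ)).trans h0
  rw [← GaussianInt.intCast_re, ← Int.cast_abs, Int.cast_le, abs_le] at h1
  rw [← GaussianInt.intCast_im, ← Int.cast_abs, Int.cast_le, abs_le] at h2
  exact ⟨h1, h2⟩

theorem word_fin {z : ℕ → GaussianInt} {D : ℝ}
    (hD : ∀ t, ‖(z (t + 1) : ℂ) - (z t : ℂ)‖ ≤ D) (R : ℕ) : (Set.range (word z R)).Finite := by
  refine (Set.Finite.pi' fun _ : Fin R => fin_ball D).subset ?_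
  rintro _ ⟨t, rfl⟩ u
  show ‖((z (t + u + 1) - z (t + u) : GaussianInt) : ℂ)‖ ≤ D
  rw [map_sub]
  exact hD _

theorem dist_le {z : ℕ → GaussianInt} {D : ℝ}
    (hD : ∀ t, ‖(z (t + 1) : ℂ) - (z t : ℂ)‖ ≤ D) (s u : ℕ) :
    ‖(z (s + u) : ℂ) - (z s : ℂ)‖ ≤ D * u := by
  induction u with
  | zero => simp
  | succ u ih =>
    have h := norm_sub_le_norm_sub_add_norm_sub (z (s + u + 1) : ℂ) (z (s + u) : ℂ) (z s : ℂ)
    have h1 := hD (s + u)
    push_cast
    rw [← add_assoc]
    linarith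

theorem norm_le {z : ℕ → GaussianInt} {D : ℝ}
    (hD : ∀ t, ‖(z (t + 1) : ℂ) - (z t : ℂ)‖ ≤ D) {s u v R : ℕ} (hu : u ≤ R) (hv : v ≤ R) :
    ((z (s + u) - z (s + v)).norm : ℝ) ≤ (D * R) ^ 2 := by
  have hD0 : 0 ≤ D := (norm_nonneg _).trans (hD 0)
  have key : ∀ u v, u ≤ R → v ≤ u → ‖(z (s + u) : ℂ) - (z (s + v) : ℂ)‖ ≤ D * R := by
    intro u v hu hv
    have h := dist_le hD (s + v) (u - v)
    rw [add_assoc, Nat.add_sub_cancel' hv] at h
    exact h.trans (mul_le_mul_of_nonneg_left (Nat.cast_le.2 (by omega)) hD0)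
  rw [GaussianInt.intCast_real_norm, Complex.normSq_eq_norm_sq, map_sub]
  refine pow_le_pow_left₀ (norm_nonneg _) ?_ 2
  rcases le_total v u with h | h
  · exact key u v hu h
  · rw [norm_sub_rev]
    exact key v u hv h

theorem word_shift {z : ℕ → GaussianInt} {R s s' : ℕ} (h : word z R s = word z R s') :
    ∀ u ≤ R, z (s + u) - z s = z (s' + u) - z s' := by
  intro u
  induction u with
  | zero => simp
  | succ u ih =>
    intro hu
    have h1 : z (s + u + 1) - z (s + u) = z (s' + u + 1) - z (s' + u) :=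
      congrFun h ⟨u, by omega⟩
    have h2 := ih (by omega)
    rw [← add_assoc, ← add_assoc]
    linear_combination h1 + h2

theorem shapes {z : ℕ → GaussianInt} (hz : Function.Injective z)
    (hfin : ∀ R, (Set.range (word z R)).Finite) (r c : ℕ → ℕ) (K : ℕ)
    (h : ∀ i < K, c i * cx z (r i) + r i < r (i + 1)) (t : ℕ) :
    ∃ (b : GaussianInt) (A : ℕ → Finset GaussianInt),
      (∀ i < K, c i < (A i).card ∧ ∀ a ∈ A i, ∀ a' ∈ A i, ∃ s u v, u ≤ r (i + 1) ∧
        v ≤ r (i + 1) ∧ a - a' = z (s + u) - z (s + v)) ∧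
      ∀ a : ℕ → GaussianInt, (∀ i < K, a i ∈ A i) →
        ∃ u ≤ r K, z (t + u) = b + ∑ i ∈ range K, a i := by
  classical
  induction K generalizing t with
  | zero => exact ⟨z t, fun _ => ∅, fun i hi => absurd hi (by omega), fun a _ => ⟨0, by simp⟩⟩
  | succ K ih =>
    have hK := h K (by omega)
    obtain ⟨w, -, hw⟩ := exists_lt_card_fiber_of_mul_lt_card_of_maps_to
      (s := range (r (K + 1) - r K)) (t := (hfin (r K)).toFinset)
      (f := fun s => word z (r K) (t + s)) (n := c K)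
      (fun s _ => (Set.Finite.mem_toFinset _).2 ⟨_, rfl⟩) (by
        rw [card_range, ← Set.ncard_eq_toFinset_card _ (hfin (r K)), mul_comm]
        unfold cx at hK
        omega)
    obtain ⟨S, hS⟩ : ∃ S, S = (range (r (K + 1) - r K)).filter
      fun s => word z (r K) (t + s) = w := ⟨_, rfl⟩
    rw [← hS] at hw
    have hm : ∀ s ∈ S, s + r K ≤ r (K + 1) ∧ word z (r K) (t + s) = w := fun s hs => by
      rw [hS, mem_filter, mem_range] at hs
      exact ⟨by omega, hs.2⟩
    obtain ⟨s0, hs0⟩ : S.Nonempty := card_pos.1 (by omega)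
    obtain ⟨b, A, hA, hb⟩ := ih (fun i hi => h i (by omega)) (t + s0)
    refine ⟨b, fun i => if i = K then S.image fun s => z (t + s) - z (t + s0) else A i,
      fun i hi => ?_, fun a ha => ?_⟩
    · by_cases e : i = K
      · subst e
        simp only [if_true]
        refine ⟨?_, fun a ha a' ha' => ?_⟩
        · rwa [card_image_of_injective _ fun s s' e => by
            have := hz (sub_left_injective e)
            omega]
        · obtain ⟨u, hu, rfl⟩ := mem_image.1 ha
          obtain ⟨v, hv, rfl⟩ := mem_image.1 ha'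
          exact ⟨t, u, v, by have := (hm u hu).1; omega, by have := (hm v hv).1; omega, by ring⟩
      · simp only [if_neg e]
        exact hA i (by omega)
    · obtain ⟨u, hu, e⟩ := hb a fun i hi => by
        have := ha i (by omega)
        beta_reduce at this
        rwa [if_neg (by omega)] at this
      have h1 := ha K (by omega)
      beta_reduce at h1
      rw [if_pos rfl] at h1
      obtain ⟨s, hs, e1⟩ := mem_image.1 h1
      have h2 := word_shift ((hm s hs).2.trans (hm s0 hs0).2.symm) u hu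
      refine ⟨s + u, by have := (hm s hs).1; omega, ?_⟩
      rw [sum_range_succ, ← e1, ← add_assoc]
      linear_combination h2 + e

theorem cd_aux {p : ℕ} (hp : p.Prime) (s : Bool) (b : GaussianInt) (A : ℕ → Finset GaussianInt)
    (K : ℕ) (hA : ∀ i < K, (A i).Nonempty) :
    ∃ S : Finset (ZMod p), S.Nonempty ∧
      (∀ x ∈ S, ∃ a : ℕ → GaussianInt, (∀ i < K, a i ∈ A i) ∧
        x = phi p s (b + ∑ i ∈ range K, a i)) ∧
      (p ≤ S.card ∨ ∑ i ∈ range K, nu p s (A i) ≤ S.card + K) := by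
  classical
  induction K with
  | zero =>
    exact ⟨{phi p s b}, singleton_nonempty _, fun x hx => ⟨fun _ => 0, fun i hi =>
      absurd hi (by omega), by simpa using hx⟩, Or.inr (by simp)⟩
  | succ K ih =>
    obtain ⟨S, hS, h1, h2⟩ := ih fun i hi => hA i (by omega)
    have hB : ((A K).image (phi p s)).Nonempty := (hA K (by omega)).image _
    refine ⟨S + (A K).image (phi p s), hS.add hB, fun x hx => ?_, ?_⟩
    · obtain ⟨x1, hx1, x2, hx2, rfl⟩ := mem_add.1 hx
      obtain ⟨a, ha, rfl⟩ := h1 x1 hx1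
      obtain ⟨g, hg, rfl⟩ := mem_image.1 hx2
      refine ⟨fun i => if i = K then g else a i, fun i hi => ?_, ?_⟩
      · by_cases e : i = K
        · subst e
          simpa using hg
        · simp only [if_neg e]
          exact ha i (by omega)
      · rw [sum_range_succ, if_pos rfl, ← add_assoc, phi_add _ _ _ g]
        congr 3
        exact sum_congr rfl fun i hi => (if_neg (mem_range.1 hi).ne).symm
    · have h3 := ZMod.cauchy_davenport hp hS hB
      have h4 := hB.card_pos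
      rw [sum_range_succ]
      unfold nu at h2 ⊢
      omega

theorem cd {p : ℕ} (hp : p.Prime) (s : Bool) (b : GaussianInt) (A : ℕ → Finset GaussianInt)
    (K : ℕ) (hA : ∀ i < K, (A i).Nonempty)
    (h : ∀ a : ℕ → GaussianInt, (∀ i < K, a i ∈ A i) →
      phi p s (b + ∑ i ∈ range K, a i) ≠ 0) :
    ∑ i ∈ range K, nu p s (A i) ≤ p + K := by
  classical
  have := Fact.mk hp
  obtain ⟨S, -, h1, h2⟩ := cd_aux hp s b A K hA
  have h3 : S.card < p := by
    have h4 : S ⊂ univ := (ssubset_iff_of_subset (subset_univ _)).2 ⟨0, mem_univ _, fun h0 => by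
      obtain ⟨a, ha, e⟩ := h1 0 h0
      exact h a ha e.symm⟩
    have h5 := card_lt_card h4
    rwa [card_univ, ZMod.card] at h5
  omega

theorem comb {K : ℕ} {A : ℕ → Finset GaussianInt} (hA : ∀ i < K, (A i).Nonempty) (y : ℕ → ℕ)
    (w : ℕ → ℝ) {Y : ℕ} (hy : ∀ i < K, y i ≤ Y)
    (hcd : ∀ p ∈ P1 Y, ∀ s, ∑ i ∈ range K, nu p s (A i) ≤ p + K) :
    ∑ i ∈ range K, ∑ j ∈ range K,
        w i * w j * ∑ p ∈ P1 (min (y i) (y j)), 2 * log p / (p + K) ≤
      ∑ i ∈ range K, w i ^ 2 * ∑ p ∈ P1 (y i), ∑ s : Bool, log p / nu p s (A i) := by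
  have hf : ∀ x ≤ Y, ∀ f : ℕ → ℝ, ∑ p ∈ P1 x, f p = ∑ p ∈ P1 Y, if p ≤ x then f p else 0 := by
    intro x hx f
    rw [← sum_filter]
    congr 1
    ext p
    simp only [mem_filter, mem_P1]
    constructor
    · rintro ⟨a, b⟩
      exact ⟨⟨a.trans hx, b⟩, a⟩
    · rintro ⟨⟨-, b⟩, a⟩
      exact ⟨a, b⟩
  have e1 : ∑ i ∈ range K, ∑ j ∈ range K,
      w i * w j * ∑ p ∈ P1 (min (y i) (y j)), 2 * log p / (p + K) =
      ∑ p ∈ P1 Y, ∑ _s : Bool, log p *
        ((∑ i ∈ range K, if p ≤ y i then w i else 0) ^ 2 / (p + K)) := by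
    rw [sum_congr rfl fun i hi => sum_congr rfl fun j _ => by
      rw [hf _ ((min_le_left _ _).trans (hy i (mem_range.1 hi))), mul_sum]]
    rw [sum_congr rfl fun i _ => sum_comm, sum_comm]
    refine sum_congr rfl fun p _ => ?_
    rw [sum_const, card_univ, Fintype.card_bool, sq, sum_mul_sum, sum_div, mul_sum, smul_sum]
    refine sum_congr rfl fun i _ => ?_
    rw [sum_div, mul_sum, smul_sum]
    refine sum_congr rfl fun j _ => ?_
    simp only [le_min_iff]
    by_cases h1 : p ≤ y i <;> by_cases h2 : p ≤ y j <;> simp [h1, h2]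
    ring
  have e2 : ∑ i ∈ range K, w i ^ 2 * ∑ p ∈ P1 (y i), ∑ s : Bool, log p / nu p s (A i) =
      ∑ p ∈ P1 Y, ∑ s : Bool, log p *
        ∑ i ∈ range K, (if p ≤ y i then w i else 0) ^ 2 / (nu p s (A i) : ℝ) := by
    rw [sum_congr rfl fun i hi => by rw [hf _ (hy i (mem_range.1 hi)), mul_sum], sum_comm]
    refine sum_congr rfl fun p _ => ?_
    simp only [mul_sum]
    rw [sum_comm (s := univ)]
    refine sum_congr rfl fun i _ => ?_
    by_cases h1 : p ≤ y i
    · simp only [if_pos h1, mul_sum]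
      exact sum_congr rfl fun s _ => by ring
    · simp [h1]
  rw [e1, e2]
  refine sum_le_sum fun p hp => sum_le_sum fun s _ =>
    mul_le_mul_of_nonneg_left ?_ (Real.log_natCast_nonneg p)
  rcases Nat.eq_zero_or_pos K with rfl | hK
  · simp
  have hpos : ∀ i ∈ range K, (0 : ℝ) < nu p s (A i) := fun i hi =>
    Nat.cast_pos.2 ((hA i (mem_range.1 hi)).image _).card_pos
  refine le_trans ?_ (sq_sum_div_le_sum_sq_div _ _ hpos)
  refine div_le_div_of_nonneg_left (sq_nonneg _) (sum_pos hpos ⟨0, mem_range.2 hK⟩) ?_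
  exact_mod_cast hcd p hp s

end Vale.Agent.P015
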